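import Mathlib

/-!
# [VAL] a valuation subring of `ℂ` above a non archimedean absolute value of a field `K ⊂ ℂ`
(P022-X, block [VAL] of the plan of helper933)
-/

namespace Vale.Agent.P022.H633

variable {K : Type*} [Field K] {E : Type*} [NormedField E] [IsUltrametricDist E]
  {F : Type*} [Field F] (ι : K →+* E) (σ : K →+* F)

/-- the valuation subring `{x | ‖ι x‖ ≤ 1}` of `K`, mapped to `F` -/
def imA : Subring F where
  carrier := {y | ∃ x : K, ‖ι x‖ ≤ 1 ∧ σ x = y}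
  mul_mem' := by
    rintro _ _ ⟨x, hx, rfl⟩ ⟨y, hy, rfl⟩
    refine ⟨x * y, ?_, map_mul _ _ _⟩
    rw [map_mul, norm_mul]
    exact mul_le_one₀ hx (norm_nonneg _) hy
  one_mem' := ⟨1, by simp, map_one _⟩
  add_mem' := by
    rintro _ _ ⟨x, hx, rfl⟩ ⟨y, hy, rfl⟩
    refine ⟨x + y, ?_, map_add _ _ _⟩
    rw [map_add]
    exact (IsUltrametricDist.norm_add_le_max _ _).trans (max_le hx hy)
  zero_mem' := ⟨0, by simp, map_zero _⟩
  neg_mem' := by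
    rintro _ ⟨x, hx, rfl⟩
    exact ⟨-x, by simpa using hx, map_neg _ _⟩

/-- its maximal ideal -/
def imI : Ideal (imA ι σ) where
  carrier := {y | ∃ x : K, ‖ι x‖ < 1 ∧ σ x = y}
  add_mem' := by
    rintro _ _ ⟨x, hx, h1⟩ ⟨y, hy, h2⟩
    refine ⟨x + y, ?_, by rw [map_add, h1, h2]; rfl⟩
    rw [map_add]
    exact (IsUltrametricDist.norm_add_le_max _ _).trans_lt (max_lt hx hy)
  zero_mem' := ⟨0, by simp, map_zero _⟩
  smul_mem' := by
    rintro ⟨_, a, ha, rfl⟩ b ⟨x, hx, h1⟩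
    refine ⟨a * x, ?_, by rw [map_mul, h1]; rfl⟩
    rw [map_mul, norm_mul]
    exact mul_lt_one_of_nonneg_of_lt_one_right ha (norm_nonneg _) hx

theorem imI_ne : imI ι σ ≠ ⊤ := by
  intro h
  have h1 : (1 : imA ι σ) ∈ imI ι σ := by rw [h]; trivial
  obtain ⟨x, hx, h2⟩ := h1
  have h3 : σ x = σ 1 := by rw [h2, map_one]; rfl
  have h4 : x = 1 := σ.injective h3
  rw [h4, map_one, norm_one] at hx
  exact lt_irrefl _ hx

/-- **[VAL]** a valuation subring of `F` which induces `{x | ‖ι x‖ ≤ 1}` on `K` -/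
theorem exists_val : ∃ O : ValuationSubring F, ∀ x : K, σ x ∈ O ↔ ‖ι x‖ ≤ 1 := by
  obtain ⟨O, h1, h2⟩ := Ideal.image_subset_nonunits_valuationSubring (imI ι σ) (imI_ne ι σ)
  refine ⟨O, fun x => ⟨fun h => ?_, fun h => h1 ⟨x, h, rfl⟩⟩⟩
  by_contra hx
  rw [not_le] at hx
  have hx0 : x ≠ 0 := by
    rintro rfl
    rw [map_zero, norm_zero] at hx
    exact absurd hx (by norm_num)
  have hι : ‖ι x⁻¹‖ < 1 := by
    rw [map_inv₀, norm_inv]; exact inv_lt_one_of_one_lt₀ hx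
  have h3 : σ x⁻¹ ∈ O.nonunits := h2 ⟨⟨σ x⁻¹, x⁻¹, hι.le, rfl⟩, ⟨x⁻¹, hι, rfl⟩, rfl⟩
  have h4 : O.valuation (σ x⁻¹) < 1 := h3
  have h5 : O.valuation (σ x) ≤ 1 := (O.valuation_le_one_iff _).2 h
  have h6 : O.valuation (σ x) * O.valuation (σ x⁻¹) = 1 := by
    rw [← map_mul, ← map_mul, mul_inv_cancel₀ hx0, map_one, map_one]
  have h7 : O.valuation (σ x) * O.valuation (σ x⁻¹) < 1 :=
    mul_lt_one_of_nonneg_of_lt_one_right h5 zero_le h4
  exact absurd h6 h7.ne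

variable {ι σ}

omit [IsUltrametricDist E] in
/-- algebraic integers lie in `O` -/
theorem mem_of_isIntegral (O : ValuationSubring F) {z : F} (hz : IsIntegral ℤ z) : z ∈ O := by
  have h1 : IsIntegral O z := hz.tower_top
  obtain ⟨y, hy⟩ := IsIntegrallyClosed.isIntegral_iff.1 h1
  rw [← hy]; exact y.2

omit [IsUltrametricDist E] in
/-- `y ∈ c O` for `c ∈ K` -/
theorem val_div {O : ValuationSubring F} (hO : ∀ x : K, σ x ∈ O ↔ ‖ι x‖ ≤ 1) {c : K} (hc : c ≠ 0)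
    (x : K) : (∃ y ∈ O, σ x = σ c * y) ↔ ‖ι x‖ ≤ ‖ι c‖ := by
  have hc' : ι c ≠ 0 := (map_ne_zero ι).2 hc
  have hc2 : σ c ≠ 0 := (map_ne_zero σ).2 hc
  have e : ‖ι x‖ ≤ ‖ι c‖ ↔ ‖ι (x / c)‖ ≤ 1 := by
    rw [map_div₀, norm_div, div_le_one (norm_pos_iff.2 hc')]
  rw [e, ← hO]
  constructor
  · rintro ⟨y, hy, h⟩
    rw [map_div₀, h, mul_div_cancel_left₀ _ hc2]; exact hy
  · intro h
    refine ⟨_, h, ?_⟩
    rw [map_div₀, mul_div_cancel₀ _ hc2]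

omit [IsUltrametricDist E] in
/-- an element of `O` whose class in `K` is a unit of the valuation ring is a unit of `O` -/
theorem inv_mem {O : ValuationSubring F} (hO : ∀ x : K, σ x ∈ O ↔ ‖ι x‖ ≤ 1) {x : K}
    (hx : ‖ι x‖ = 1) : (σ x)⁻¹ ∈ O := by
  rw [← map_inv₀, hO, map_inv₀, norm_inv, hx, inv_one]

section two

variable {E' : Type*} [NormedField E'] [NormedAlgebra ℚ_[2] E'] {ι' : K →+* E'}

theorem norm_two : ‖(2 : E')‖ = 2⁻¹ := by
  have h1 : ‖algebraMap ℚ_[2] E' 2‖ = ‖(2 : ℚ_[2])‖ := norm_algebraMap' E' (2 : ℚ_[2])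
  rw [map_ofNat] at h1
  rw [h1]
  have := Padic.norm_p (p := 2)
  simpa using this

/-- for `x ∈ K`: `x ∈ 2 ^ n O` iff `‖ι x‖ ≤ 2 ^ (-n)` -/
theorem val_two [CharZero K] {O : ValuationSubring F} (hO : ∀ x : K, σ x ∈ O ↔ ‖ι' x‖ ≤ 1) (n : ℕ)
    (x : K) : (∃ y ∈ O, σ x = 2 ^ n * y) ↔ ‖ι' x‖ ≤ 2⁻¹ ^ n := by
  have h := val_div hO (pow_ne_zero n (two_ne_zero (α := K))) x
  rw [map_pow, map_ofNat, map_pow, map_ofNat, norm_pow, norm_two] at h
  exact h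

/-- `2` is not a unit of `O` -/
theorem half_notMem [CharZero K] {O : ValuationSubring F} (hO : ∀ x : K, σ x ∈ O ↔ ‖ι' x‖ ≤ 1) :
    (2 : F)⁻¹ ∉ O := by
  intro h
  have h1 : σ (2⁻¹ : K) ∈ O := by rwa [map_inv₀, map_ofNat]
  rw [hO, map_inv₀, map_ofNat, norm_inv, norm_two] at h1
  norm_num at h1

/-- odd integers are units of `O` -/
theorem odd_inv_mem {O : ValuationSubring F} (hO : ∀ x : K, σ x ∈ O ↔ ‖ι' x‖ ≤ 1) {n : ℤ}
    (hn : Odd n) : (n : F)⁻¹ ∈ O := by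
  have h1 : ‖ι' (n : K)‖ = 1 := by
    have h2 : ‖algebraMap ℚ_[2] E' n‖ = ‖(n : ℚ_[2])‖ := norm_algebraMap' E' (n : ℚ_[2])
    rw [map_intCast] at h2
    rw [map_intCast, h2]
    refine le_antisymm (Padic.norm_int_le_one n) (not_lt.1 fun h => ?_)
    rw [Padic.norm_intCast_lt_one_iff] at h
    have h3 : (2 : ℤ) ∣ n := by exact_mod_cast h
    exact (Int.not_even_iff_odd.2 hn) (even_iff_two_dvd.2 h3)
  have h3 := inv_mem hO h1
  rwa [map_intCast] at h3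

end two

end Vale.Agent.P022.H633
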